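import Vale.Agent.P355.H138.TA.ABC.T
import Vale.Agent.P355.H138.TA.ABC.C0
import Vale.Agent.P355.H138.TA.ABC.R0

namespace Vale.Agent.P355.H138.TA.ABC

open Vale.Agent.P355 Vale.Agent.P355.H147 Vale.Agent.P355.H998.E

theorem hR : CX 5 0 0 D cls mv 0 38 := cm0

theorem sok {m : ℕ} {B : Fin m → M6} (hB : IsMUBs B) :
    SOk t.n 38 (D.G.act 5 0 0) G.nu ((D.T.ty 5).M B)
      (fun i => (D.XL.getD i pf0).dec 5 0 0) ((6 : ℝ) ^ D.TT) t.R
      (fun i => cvB B 5 (cls i)) t.BP t.EL :=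
  ED.sokX (k := 0) (l := 0) hB (by norm_num) hmv ck hnk hR

theorem hP : Ch t true 0 38 0 P0 := hP0

theorem hQ : Ch t false 0 38 0 Q0 := hQ0

end Vale.Agent.P355.H138.TA.ABC
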