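import Vale.Agent.P355.H138.TA.ABC.D
import Vale.Agent.P355.H138.TA.ABC.B0
import Vale.Agent.P355.H138.TA.ABC.B1
import Vale.Agent.P355.H138.TA.ABC.B2
import Vale.Agent.P355.H138.TA.ABC.B3
import Vale.Agent.P355.H138.TA.ABC.B4
import Vale.Agent.P355.H138.TA.ABC.B5
import Vale.Agent.P355.H138.TA.ABC.B6
import Vale.Agent.P355.H138.TA.ABC.B7
import Vale.Agent.P355.H138.TA.ABC.B8
import Vale.Agent.P355.H138.TA.ABC.B9
import Vale.Agent.P355.H138.TA.ABC.B10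
import Vale.Agent.P355.H138.TA.ABC.B11
import Vale.Agent.P355.H147.Acc3

namespace Vale.Agent.P355.H138.TA.ABC

open Vale.Agent.P355 Vale.Agent.P355.H147 Vale.Agent.P355.H998.E Vale.Agent.P355.H129

noncomputable def t : TyE := ⟨RcE 1 40, 24, 80, 51, 7, 38, 137438953472, 80, BP, 6, [b0, b1, b2, b3, b4, b5, b6, b7, b8, b9, b10, b11], EL⟩

theorem bok : BOk 24 G.nu 38 51 7 137438953472 80 38 [b0, b1, b2, b3, b4, b5, b6, b7, b8, b9, b10, b11] :=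
  BOk.cons (BOk.cons (BOk.cons (BOk.cons (BOk.cons (BOk.cons (BOk.cons (BOk.cons (BOk.cons (BOk.cons (BOk.cons (BOk.cons (BOk.nil _ _ _ _ _ _ _ _) bk11 psd11) bk10 psd10) bk9 psd9) bk8 psd8) bk7 psd7) bk6 psd6) bk5 psd5) bk4 psd4) bk3 psd3) bk2 psd2) bk1 psd1) bk0 psd0

theorem tok : t.Ok G.nu 38 :=
  ⟨bok, by decide +kernel, fun e => RcE_le 1 40 e⟩

end Vale.Agent.P355.H138.TA.ABC
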